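import Mathlib

/-! Simplex cells, for P052.NarrowFarSets: two vectors in one of the `d + 1` cells satisfy
`‖a - b‖² ≤ (d+1) ‖a + b‖²`, so their inner product is at least `-(d/(d+2)) ‖a‖ ‖b‖`. -/

namespace Vale.Agent.P052.R3.H612

open scoped RealInnerProductSpace

theorem cell_fun {d : ℕ} {x y : Fin (d + 1) → ℝ} (hx : ∑ i, x i = 0) (hy : ∑ i, y i = 0)
    (k : Fin (d + 1)) (hxk : ∀ i, x i ≤ x k) (hyk : ∀ i, y i ≤ y k) :
    ∑ i, (x i - y i) ^ 2 ≤ (d + 1) * ∑ i, (x i + y i) ^ 2 := by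
  classical
  set g : Fin (d + 1) → ℝ := fun i => x k - x i with hg
  set h : Fin (d + 1) → ℝ := fun i => y k - y i with hh
  have g0 : ∀ i, 0 ≤ g i := fun i => sub_nonneg.2 (hxk i)
  have h0 : ∀ i, 0 ≤ h i := fun i => sub_nonneg.2 (hyk i)
  have gk : g k = 0 := sub_self _
  have hk : h k = 0 := sub_self _
  have sg : ∑ i, g i = (d + 1) * x k := by
    simp [hg, Finset.sum_sub_distrib, hx]
  have sh : ∑ i, h i = (d + 1) * y k := by
    simp [hh, Finset.sum_sub_distrib, hy]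
  have e1 : ∑ i, (x i + y i) ^ 2
      = ∑ i, (g i + h i) ^ 2 - 2 * (x k + y k) * (∑ i, g i + ∑ i, h i)
        + (d + 1) * (x k + y k) ^ 2 := by
    rw [← Finset.sum_add_distrib, Finset.mul_sum, ← Finset.sum_sub_distrib]
    have : ((d : ℝ) + 1) * (x k + y k) ^ 2 = ∑ _i : Fin (d + 1), (x k + y k) ^ 2 := by simp
    rw [this, ← Finset.sum_add_distrib]
    refine Finset.sum_congr rfl fun i _ => ?_
    simp only [hg, hh]; ring
  have e2 : ∑ i, (x i - y i) ^ 2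
      = ∑ i, (g i - h i) ^ 2 - 2 * (x k - y k) * (∑ i, g i - ∑ i, h i)
        + (d + 1) * (x k - y k) ^ 2 := by
    rw [← Finset.sum_sub_distrib, Finset.mul_sum, ← Finset.sum_sub_distrib]
    have : ((d : ℝ) + 1) * (x k - y k) ^ 2 = ∑ _i : Fin (d + 1), (x k - y k) ^ 2 := by simp
    rw [this, ← Finset.sum_add_distrib]
    refine Finset.sum_congr rfl fun i _ => ?_
    simp only [hg, hh]; ring
  have e3 : ∑ i, (g i - h i) ^ 2 ≤ ∑ i, (g i + h i) ^ 2 :=
    Finset.sum_le_sum fun i _ => by nlinarith [mul_nonneg (g0 i) (h0 i)]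
  have e4 : (∑ i, (g i + h i)) ^ 2 ≤ d * ∑ i, (g i + h i) ^ 2 := by
    have a1 : ∑ i, (g i + h i) = ∑ i ∈ Finset.univ.erase k, (g i + h i) := by
      rw [← Finset.add_sum_erase _ _ (Finset.mem_univ k), gk, hk]; simp
    have a2 : ∑ i, (g i + h i) ^ 2 = ∑ i ∈ Finset.univ.erase k, (g i + h i) ^ 2 := by
      rw [← Finset.add_sum_erase _ _ (Finset.mem_univ k), gk, hk]; simp
    have a3 : ((Finset.univ.erase k).card : ℝ) = d := by
      rw [Finset.card_erase_of_mem (Finset.mem_univ k)]; simp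
    rw [a1, a2]
    have := sq_sum_le_card_mul_sum_sq (s := Finset.univ.erase k) (f := fun i => g i + h i)
    rwa [a3] at this
  rw [Finset.sum_add_distrib, sg, sh] at e4
  rw [sg, sh] at e1 e2
  rw [e1, e2]
  have hd : (0 : ℝ) ≤ d := Nat.cast_nonneg d
  have e5 : 0 ≤ ((d : ℝ) + 1) * (x k - y k) ^ 2 := by positivity
  nlinarith

theorem cells (d : ℕ) : ∃ c : EuclideanSpace ℝ (Fin d) → Fin (d + 1), ∀ a b, c a = c b →
    ‖a - b‖ ^ 2 ≤ (d + 1) * ‖a + b‖ ^ 2 := by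
  classical
  let one : EuclideanSpace ℝ (Fin (d + 1)) := WithLp.toLp 2 fun _ => 1
  have hone : one ≠ 0 := by
    intro h
    have := congrArg (fun v : EuclideanSpace ℝ (Fin (d + 1)) => v 0) h
    simp [one] at this
  have : Fact (Module.finrank ℝ (EuclideanSpace ℝ (Fin (d + 1))) = d + 1) := ⟨by simp⟩
  let e := (OrthonormalBasis.fromOrthogonalSpanSingleton (𝕜 := ℝ) d hone).repr
  let L : EuclideanSpace ℝ (Fin d) → EuclideanSpace ℝ (Fin (d + 1)) := fun a => (e.symm a : _)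
  have hadd : ∀ a b, L (a + b) = L a + L b := fun a b => by simp [L]
  have hsub : ∀ a b, L (a - b) = L a - L b := fun a b => by simp [L]
  have hnorm : ∀ a, ‖L a‖ = ‖a‖ := fun a => by
    exact (Submodule.coe_norm _).symm.trans (e.symm.norm_map a)
  have hsum : ∀ a, ∑ i, L a i = 0 := fun a => by
    have h : ⟪one, L a⟫ = 0 := Submodule.mem_orthogonal_singleton_iff_inner_right.1 (e.symm a).2
    rw [PiLp.inner_apply] at h
    simpa [one] using h
  have hmax : ∀ a, ∃ k, ∀ i, L a i ≤ L a k := fun a => Finite.exists_max _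
  choose c hc using hmax
  refine ⟨c, fun a b hab => ?_⟩
  have h := cell_fun (hsum a) (hsum b) (c a) (hc a) (hab ▸ hc b)
  rw [← hnorm (a - b), ← hnorm (a + b), hadd, hsub, EuclideanSpace.norm_sq_eq,
    EuclideanSpace.norm_sq_eq]
  simpa using h

/-- The same with directions. -/
theorem cells_inner (d : ℕ) : ∃ c : EuclideanSpace ℝ (Fin d) → Fin (d + 1), ∀ a b, a ≠ 0 → b ≠ 0 →
    c a = c b → -(d / (d + 2) : ℝ) * (‖a‖ * ‖b‖) ≤ ⟪a, b⟫ := by
  obtain ⟨c, hc⟩ := cells d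
  refine ⟨fun a => c (‖a‖⁻¹ • a), fun a b ha hb hab => ?_⟩
  have h := hc _ _ hab
  have na : 0 < ‖a‖ := norm_pos_iff.2 ha
  have nb : 0 < ‖b‖ := norm_pos_iff.2 hb
  have ua : ‖‖a‖⁻¹ • a‖ = 1 := by
    rw [norm_smul, norm_inv, norm_norm, inv_mul_cancel₀ na.ne']
  have ub : ‖‖b‖⁻¹ • b‖ = 1 := by
    rw [norm_smul, norm_inv, norm_norm, inv_mul_cancel₀ nb.ne']
  rw [norm_sub_sq_real, norm_add_sq_real, ua, ub, real_inner_smul_left,
    real_inner_smul_right] at h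
  set t := ‖a‖⁻¹ * (‖b‖⁻¹ * ⟪a, b⟫) with ht
  have hd : (0 : ℝ) ≤ d := Nat.cast_nonneg d
  have ht2 : -(d / (d + 2) : ℝ) ≤ t := by
    rw [neg_le, div_eq_mul_inv, ← div_eq_mul_inv, le_div_iff₀ (by positivity)]
    nlinarith
  have hi : ⟪a, b⟫ = t * (‖a‖ * ‖b‖) := by
    rw [ht]; field_simp
  rw [hi]
  exact mul_le_mul_of_nonneg_right ht2 (by positivity)

/-- The same with angles. -/
theorem cells_angle (d : ℕ) : ∃ c : EuclideanSpace ℝ (Fin d) → Fin (d + 1), ∀ a b, a ≠ 0 → b ≠ 0 →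
    c a = c b → InnerProductGeometry.angle a b ≤ Real.pi - Real.arccos (d / (d + 2)) := by
  obtain ⟨c, hc⟩ := cells_inner d
  refine ⟨c, fun a b ha hb hab => ?_⟩
  have h := hc a b ha hb hab
  have na : 0 < ‖a‖ := norm_pos_iff.2 ha
  have nb : 0 < ‖b‖ := norm_pos_iff.2 hb
  rw [InnerProductGeometry.angle, ← Real.arccos_neg]
  apply Real.arccos_le_arccos
  rw [le_div_iff₀ (by positivity)]
  exact h

end Vale.Agent.P052.R3.H612
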