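import Mathlib

/-! Jung on the sphere, for P052.NarrowFarSets: unit vectors with pairwise inner products at least
one half lie in a cap of angular radius arccos sqrt((d+1)/(2d)). -/

namespace Vale.Agent.P052.R3.H612

open scoped RealInnerProductSpace

variable {E : Type*} [NormedAddCommGroup E] [InnerProductSpace ℝ E]

/-- The quadratic estimate: a positive combination of `m` unit vectors with pairwise inner products
at least one half has square norm at least `1/2 + 1/(2m)`. -/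
theorem norm_comb {ι : Type*} [Fintype ι] {u : ι → E} {c : ι → ℝ} (hc : ∀ i, 0 < c i)
    (hs : ∑ i, c i = 1) (h1 : ∀ i, ‖u i‖ = 1) (h2 : ∀ i j, 1 / 2 ≤ ⟪u i, u j⟫)
    {m : ℝ} (hm : (Fintype.card ι : ℝ) ≤ m) (hm0 : 0 < m) :
    (m + 1) / (2 * m) ≤ ‖∑ i, c i • u i‖ ^ 2 := by
  classical
  have e1 : ‖∑ i, c i • u i‖ ^ 2 = ∑ i, ∑ j, c i * c j * ⟪u i, u j⟫ := by
    rw [← real_inner_self_eq_norm_sq, sum_inner]
    refine Finset.sum_congr rfl fun i _ => ?_
    rw [inner_sum]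
    refine Finset.sum_congr rfl fun j _ => ?_
    rw [real_inner_smul_left, real_inner_smul_right]
    ring
  have e2 : ∀ i j, c i * c j * (1 / 2) + (if i = j then c i * c j * (1 / 2) else 0)
      ≤ c i * c j * ⟪u i, u j⟫ := by
    intro i j
    by_cases hij : i = j
    · subst hij
      rw [if_pos rfl, real_inner_self_eq_norm_sq, h1]
      linarith
    · rw [if_neg hij, add_zero]
      exact mul_le_mul_of_nonneg_left (h2 i j) (mul_pos (hc i) (hc j)).le
  have e3 : ∑ i, ∑ j, (c i * c j * (1 / 2) + (if i = j then c i * c j * (1 / 2) else 0))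
      = 1 / 2 + 1 / 2 * ∑ i, c i ^ 2 := by
    simp only [Finset.sum_add_distrib]
    have a1 : ∑ i, ∑ j, c i * c j * (1 / 2) = 1 / 2 := by
      have : ∀ i, ∑ j, c i * c j * (1 / 2) = c i * (1 / 2) := by
        intro i
        rw [← Finset.sum_mul, ← Finset.mul_sum, hs, mul_one]
      simp only [this]
      rw [← Finset.sum_mul, hs, one_mul]
    have a2 : ∑ i, ∑ j, (if i = j then c i * c j * (1 / 2) else 0) = 1 / 2 * ∑ i, c i ^ 2 := by
      rw [Finset.mul_sum]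
      refine Finset.sum_congr rfl fun i _ => ?_
      rw [Finset.sum_ite_eq]
      simp only [Finset.mem_univ, if_true]
      ring
    rw [a1, a2]
  have e4 : (1 : ℝ) ≤ m * ∑ i, c i ^ 2 := by
    have hcs : (∑ i, c i) ^ 2 ≤ (Fintype.card ι : ℝ) * ∑ i, c i ^ 2 := by
      have := sq_sum_le_card_mul_sum_sq (s := (Finset.univ : Finset ι)) (f := c)
      simpa using this
    rw [hs, one_pow] at hcs
    have h0 : 0 ≤ ∑ i, c i ^ 2 := Finset.sum_nonneg fun i _ => sq_nonneg _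
    exact hcs.trans (mul_le_mul_of_nonneg_right hm h0)
  have e5 : 1 / 2 + 1 / 2 * ∑ i, c i ^ 2 ≤ ‖∑ i, c i • u i‖ ^ 2 := by
    rw [e1, ← e3]
    exact Finset.sum_le_sum fun i _ => Finset.sum_le_sum fun j _ => e2 i j
  refine le_trans ?_ e5
  rw [div_le_iff₀ (by positivity)]
  nlinarith

/-- Finite case. -/
theorem jung_finset [FiniteDimensional ℝ E] {d : ℕ} (hd : Module.finrank ℝ E = d) (hd1 : 1 ≤ d)
    (T : Finset E) (h1 : ∀ u ∈ T, ‖u‖ = 1) (h2 : ∀ u ∈ T, ∀ v ∈ T, 1 / 2 ≤ ⟪u, v⟫) :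
    ∃ w : E, ‖w‖ ≤ 1 ∧ ∀ u ∈ T, √((d + 1) / (2 * d)) ≤ ⟪w, u⟫ := by
  classical
  rcases T.eq_empty_or_nonempty with rfl | hT
  · exact ⟨0, by simp, by simp⟩
  have hcomp : IsCompact (convexHull ℝ (T : Set E)) := T.finite_toSet.isCompact_convexHull ℝ
  have hne : (convexHull ℝ (T : Set E)).Nonempty := by
    rw [convexHull_nonempty_iff]; exact hT
  obtain ⟨w, hw, hmin⟩ := exists_norm_eq_iInf_of_complete_convex hne hcomp.isComplete
    (convex_convexHull ℝ _) 0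
  rw [norm_eq_iInf_iff_real_inner_le_zero (convex_convexHull ℝ _) hw] at hmin
  have hge : ∀ v ∈ convexHull ℝ (T : Set E), ‖w‖ ^ 2 ≤ ⟪w, v⟫ := by
    intro v hv
    have := hmin v hv
    rw [zero_sub, inner_neg_left, inner_sub_right, real_inner_self_eq_norm_sq] at this
    linarith
  obtain ⟨ι, _, z, c, hz, hind, hc, hs, hzw⟩ := eq_pos_convex_span_of_mem_convexHull hw
  have hzT : ∀ i, z i ∈ T := fun i => hz ⟨i, rfl⟩
  have hge' : ∀ i, ‖w‖ ^ 2 ≤ ⟪w, z i⟫ := fun i => hge _ (subset_convexHull ℝ _ (hzT i))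
  have hsum : ∑ i, c i * (⟪w, z i⟫ - ‖w‖ ^ 2) = 0 := by
    have : ⟪w, ∑ i, c i • z i⟫ = ‖w‖ ^ 2 := by rw [hzw, real_inner_self_eq_norm_sq]
    rw [inner_sum] at this
    simp only [real_inner_smul_right] at this
    simp only [mul_sub, Finset.sum_sub_distrib]
    rw [this, ← Finset.sum_mul, hs, one_mul, sub_self]
  have heq : ∀ i, ⟪w, z i⟫ = ‖w‖ ^ 2 := by
    intro i
    have h := (Finset.sum_eq_zero_iff_of_nonneg (fun i _ =>
      mul_nonneg (hc i).le (sub_nonneg.2 (hge' i)))).1 hsum i (Finset.mem_univ i)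
    rcases mul_eq_zero.1 h with h | h
    · exact absurd h (hc i).ne'
    · linarith
  have hz1 : ∀ i, ‖z i‖ = 1 := fun i => h1 _ (hzT i)
  have hz2 : ∀ i j, 1 / 2 ≤ ⟪z i, z j⟫ := fun i j => h2 _ (hzT i) _ (hzT j)
  have hcard0 : (0 : ℝ) < Fintype.card ι + 1 := by positivity
  have hw0 : 0 < ‖w‖ ^ 2 := by
    have := norm_comb hc hs hz1 hz2 (m := Fintype.card ι + 1) (by linarith) hcard0
    rw [hzw] at this
    exact lt_of_lt_of_le (by positivity) this
  have hlin : LinearIndependent ℝ z := by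
    rw [linearIndependent_iff']
    intro s g hg i hi
    rw [affineIndependent_iff] at hind
    refine hind s g ?_ hg i hi
    have : ⟪w, ∑ i ∈ s, g i • z i⟫ = 0 := by rw [hg, inner_zero_right]
    rw [inner_sum] at this
    simp only [real_inner_smul_right, heq] at this
    rw [← Finset.sum_mul] at this
    rcases mul_eq_zero.1 this with h | h
    · exact h
    · exact absurd h hw0.ne'
  have hcard : (Fintype.card ι : ℝ) ≤ d := by
    have := hlin.fintype_card_le_finrank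
    rw [hd] at this
    exact_mod_cast this
  have hd0 : (0 : ℝ) < d := by exact_mod_cast hd1
  have hbig : ((d : ℝ) + 1) / (2 * d) ≤ ‖w‖ ^ 2 := by
    have := norm_comb hc hs hz1 hz2 hcard hd0
    rwa [hzw] at this
  have hwn : 0 < ‖w‖ := by
    rcases (norm_nonneg w).lt_or_eq with h | h
    · exact h
    · rw [← h] at hw0; simp at hw0
  refine ⟨‖w‖⁻¹ • w, ?_, ?_⟩
  · rw [norm_smul, norm_inv, norm_norm, inv_mul_cancel₀ hwn.ne']
  · intro u hu
    rw [real_inner_smul_left]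
    have hu' := hge u (subset_convexHull ℝ _ hu)
    calc √((d + 1) / (2 * d)) ≤ ‖w‖ := by
          rw [← Real.sqrt_sq hwn.le]; exact Real.sqrt_le_sqrt hbig
      _ = ‖w‖⁻¹ * ‖w‖ ^ 2 := by field_simp
      _ ≤ ‖w‖⁻¹ * ⟪w, u⟫ := mul_le_mul_of_nonneg_left hu' (inv_nonneg.2 hwn.le)

/-- Jung on the sphere. -/
theorem jung [FiniteDimensional ℝ E] {d : ℕ} (hd : Module.finrank ℝ E = d) (hd1 : 1 ≤ d)
    {S : Set E} (h1 : ∀ u ∈ S, ‖u‖ = 1) (h2 : ∀ u ∈ S, ∀ v ∈ S, 1 / 2 ≤ ⟪u, v⟫) :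
    ∃ w : E, ‖w‖ ≤ 1 ∧ ∀ u ∈ S, √((d + 1) / (2 * d)) ≤ ⟪w, u⟫ := by
  classical
  have hcl : ∀ u : S, IsClosed {w : E | √((d + 1) / (2 * d)) ≤ ⟪w, (u : E)⟫} := fun u =>
    isClosed_le continuous_const (continuous_id.inner continuous_const)
  have := (isCompact_closedBall (0 : E) 1).inter_iInter_nonempty
    (fun u : S => {w : E | √((d + 1) / (2 * d)) ≤ ⟪w, (u : E)⟫}) hcl ?_
  · obtain ⟨w, hw, hw'⟩ := this
    refine ⟨w, by simpa using hw, fun u hu => ?_⟩
    exact Set.mem_iInter.1 hw' ⟨u, hu⟩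
  · intro t
    obtain ⟨w, hw, hw'⟩ := jung_finset hd hd1 (t.image Subtype.val)
      (by
        intro u hu
        obtain ⟨v, _, rfl⟩ := Finset.mem_image.1 hu
        exact h1 _ v.2)
      (by
        intro u hu v hv
        obtain ⟨u', _, rfl⟩ := Finset.mem_image.1 hu
        obtain ⟨v', _, rfl⟩ := Finset.mem_image.1 hv
        exact h2 _ u'.2 _ v'.2)
    refine ⟨w, by simpa using hw, ?_⟩
    simp only [Set.mem_iInter]
    intro u hu
    exact hw' _ (Finset.mem_image_of_mem _ hu)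

theorem sphere_jung {d : ℕ} (hd : 1 ≤ d) {S : Set (EuclideanSpace ℝ (Fin d))} (hne : S.Nonempty)
    (h1 : ∀ u ∈ S, ‖u‖ = 1) (h2 : ∀ u ∈ S, ∀ v ∈ S, 1 / 2 ≤ ⟪u, v⟫) :
    ∃ w, w ≠ 0 ∧ ∀ u ∈ S, √((d + 1) / (2 * d)) * ‖w‖ ≤ ⟪w, u⟫ := by
  obtain ⟨w, hw, hw'⟩ := jung (E := EuclideanSpace ℝ (Fin d)) (by simp) hd h1 h2
  have hd0 : (0 : ℝ) < d := by exact_mod_cast hd
  have hpos : 0 < √(((d : ℝ) + 1) / (2 * d)) := Real.sqrt_pos.2 (by positivity)
  refine ⟨w, ?_, fun u hu => ?_⟩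
  · rintro rfl
    obtain ⟨u, hu⟩ := hne
    have := hw' u hu
    rw [inner_zero_left] at this
    linarith
  · refine le_trans ?_ (hw' u hu)
    have := mul_le_mul_of_nonneg_left hw hpos.le
    linarith

end Vale.Agent.P052.R3.H612
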