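import Vale.Agent.P052.R3.H612.Cell
import Vale.Agent.P052.R3.H612.Jung

/-! The compactness step and the partition, for P052.NarrowFarSets. -/

namespace Vale.Agent.P052.R3.H612

open scoped RealInnerProductSpace Topology
open InnerProductGeometry Filter

section local_

variable {E : Type*} [NormedAddCommGroup E] [InnerProductSpace ℝ E]

/-- Local uniformity of the cap condition. -/
theorem cap_local {K : Set E} (hK : IsCompact K) {D : ℝ} (hD : 0 < D) {x v : E}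
    (hv : v ≠ 0) {ρ η : ℝ} (hη : 0 < η)
    (h : ∀ y ∈ K, D ≤ dist x y → angle v (y - x) ≤ ρ) :
    ∀ᶠ p : ℝ × E in 𝓝 ((0 : ℝ), x), ∀ y ∈ K, D - p.1 ≤ dist p.2 y →
      angle v (y - p.2) ≤ ρ + η := by
  refine hK.eventually_forall_of_forall_eventually
    (P := fun (p : ℝ × E) y => D - p.1 ≤ dist p.2 y → angle v (y - p.2) ≤ ρ + η) ?_
  intro y hy
  rcases lt_or_ge (dist x y) D with hlt | hge
  · have hc : ContinuousAt (fun q : (ℝ × E) × E => dist q.1.2 q.2 + q.1.1) (((0 : ℝ), x), y) := by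
      fun_prop
    have := hc.eventually_lt (g := fun _ => D) continuousAt_const (by simpa using hlt)
    filter_upwards [this] with q hq hq'
    linarith
  · have hyx : y - x ≠ 0 := by
      intro h0
      rw [sub_eq_zero] at h0
      rw [h0, dist_self] at hge
      linarith
    have hc : ContinuousAt (fun q : (ℝ × E) × E => angle v (q.2 - q.1.2))
        (((0 : ℝ), x), y) := by
      have h1 : ContinuousAt (fun w : E × E => angle w.1 w.2) (v, y - x) :=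
        continuousAt_angle hv hyx
      have h2 : ContinuousAt (fun q : (ℝ × E) × E => (v, q.2 - q.1.2)) (((0 : ℝ), x), y) := by
        fun_prop
      exact ContinuousAt.comp (g := fun w : E × E => angle w.1 w.2)
        (f := fun q : (ℝ × E) × E => (v, q.2 - q.1.2)) h1 h2
    have := hc.eventually_lt (g := fun _ => ρ + η) continuousAt_const (by
      have := h y hy hge
      change angle v (y - x) < ρ + η
      linarith)
    filter_upwards [this] with q hq _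
    exact hq.le

/-- The compactness step. -/
theorem cap_uniform {K : Set E} (hK : IsCompact K) {D θ : ℝ} (hD : 0 < D)
    (h : ∀ x ∈ K, ∀ z ∈ K, D ≤ dist x z → ∃ v w : E, ∃ ρ σ : ℝ, v ≠ 0 ∧ w ≠ 0 ∧
      (∀ y ∈ K, D ≤ dist x y → angle v (y - x) ≤ ρ) ∧
      (∀ y ∈ K, D ≤ dist z y → angle w (y - z) ≤ σ) ∧ ρ + σ < θ) :
    ∃ e > 0, ∀ x ∈ K, ∀ z ∈ K, D - e ≤ dist x z → ∃ v w : E, ∃ ρ σ : ℝ, v ≠ 0 ∧ w ≠ 0 ∧
      (∀ y ∈ K, D - e ≤ dist x y → angle v (y - x) ≤ ρ) ∧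
      (∀ y ∈ K, D - e ≤ dist z y → angle w (y - z) ≤ σ) ∧ ρ + σ ≤ θ - e := by
  have key : ∀ᶠ e : ℝ in 𝓝 (0 : ℝ), ∀ p ∈ K ×ˢ K, D - e ≤ dist p.1 p.2 →
      ∃ v w : E, ∃ ρ σ : ℝ, v ≠ 0 ∧ w ≠ 0 ∧
      (∀ y ∈ K, D - e ≤ dist p.1 y → angle v (y - p.1) ≤ ρ) ∧
      (∀ y ∈ K, D - e ≤ dist p.2 y → angle w (y - p.2) ≤ σ) ∧ ρ + σ ≤ θ - e := by
    refine (hK.prod hK).eventually_forall_of_forall_eventually
      (P := fun (e : ℝ) (p : E × E) => D - e ≤ dist p.1 p.2 →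
      ∃ v w : E, ∃ ρ σ : ℝ, v ≠ 0 ∧ w ≠ 0 ∧
      (∀ y ∈ K, D - e ≤ dist p.1 y → angle v (y - p.1) ≤ ρ) ∧
      (∀ y ∈ K, D - e ≤ dist p.2 y → angle w (y - p.2) ≤ σ) ∧ ρ + σ ≤ θ - e) ?_
    rintro ⟨x, z⟩ ⟨hx, hz⟩
    rcases lt_or_ge (dist x z) D with hlt | hge
    · have hc : ContinuousAt (fun q : ℝ × (E × E) => dist q.2.1 q.2.2 + q.1) ((0 : ℝ), (x, z)) := by
        fun_prop
      have := hc.eventually_lt (g := fun _ => D) continuousAt_const (by simpa using hlt)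
      filter_upwards [this] with q hq hq'
      linarith
    · obtain ⟨v, w, ρ, σ, hv, hw, h1, h2, h3⟩ := h x hx z hz hge
      obtain ⟨η, hη, hη'⟩ : ∃ η > 0, ρ + η + (σ + η) < θ := ⟨(θ - ρ - σ) / 3, by linarith, by linarith⟩
      have t1 : Tendsto (fun q : ℝ × (E × E) => (q.1, q.2.1)) (𝓝 ((0 : ℝ), (x, z)))
          (𝓝 ((0 : ℝ), x)) := by
        have : Continuous (fun q : ℝ × (E × E) => (q.1, q.2.1)) := by fun_prop
        exact this.tendsto ((0 : ℝ), (x, z))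
      have t2 : Tendsto (fun q : ℝ × (E × E) => (q.1, q.2.2)) (𝓝 ((0 : ℝ), (x, z)))
          (𝓝 ((0 : ℝ), z)) := by
        have : Continuous (fun q : ℝ × (E × E) => (q.1, q.2.2)) := by fun_prop
        exact this.tendsto ((0 : ℝ), (x, z))
      have hc : ContinuousAt (fun q : ℝ × (E × E) => ρ + η + (σ + η) + q.1) ((0 : ℝ), (x, z)) := by
        fun_prop
      have e3 := hc.eventually_lt (g := fun _ => θ) continuousAt_const (by simpa using hη')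
      filter_upwards [t1.eventually (cap_local hK hD hv hη h1),
        t2.eventually (cap_local hK hD hw hη h2), e3] with q q1 q2 q3 _
      exact ⟨v, w, ρ + η, σ + η, hv, hw, q1, q2, by linarith⟩
  obtain ⟨e, he, he'⟩ := (key.filter_mono nhdsWithin_le_nhds).and
    (self_mem_nhdsWithin : Set.Ioi (0 : ℝ) ∈ 𝓝[>] (0 : ℝ)) |>.exists
  exact ⟨e, he', fun x hx z hz hxz => he (x, z) ⟨hx, hz⟩ hxz⟩

end local_

/-- The partition: `d + 1` pieces of smaller diameter. -/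
theorem far_partition {d : ℕ} {K : Set (EuclideanSpace ℝ (Fin d))} (hK : IsCompact K) {D : ℝ}
    (hD : 0 < D)
    (h : ∀ x ∈ K, ∀ z ∈ K, D ≤ dist x z → ∃ v w : EuclideanSpace ℝ (Fin d), ∃ ρ σ : ℝ,
      v ≠ 0 ∧ w ≠ 0 ∧
      (∀ y ∈ K, D ≤ dist x y → angle v (y - x) ≤ ρ) ∧
      (∀ y ∈ K, D ≤ dist z y → angle w (y - z) ≤ σ) ∧ ρ + σ < Real.arccos (d / (d + 2))) :
    ∃ e > 0, ∃ c : EuclideanSpace ℝ (Fin d) → Fin (d + 1), ∀ x ∈ K, ∀ z ∈ K, c x = c z →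
      dist x z < D - e := by
  classical
  obtain ⟨e₀, he₀, hu₀⟩ := cap_uniform hK hD h
  obtain ⟨e, he, heD, he2⟩ : ∃ e > 0, e < D ∧ e ≤ e₀ :=
    ⟨min (D / 2) e₀, by positivity, (min_le_left _ _).trans_lt (by linarith), min_le_right _ _⟩
  have hu : ∀ x ∈ K, ∀ z ∈ K, D - e ≤ dist x z → ∃ v w : EuclideanSpace ℝ (Fin d),
      ∃ ρ σ : ℝ, v ≠ 0 ∧ w ≠ 0 ∧
      (∀ y ∈ K, D - e ≤ dist x y → angle v (y - x) ≤ ρ) ∧
      (∀ y ∈ K, D - e ≤ dist z y → angle w (y - z) ≤ σ) ∧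
      ρ + σ ≤ Real.arccos (d / (d + 2)) - e := by
    intro x hx z hz hxz
    obtain ⟨v, w, ρ, σ, hv, hw, h1, h2, h3⟩ := hu₀ x hx z hz (by linarith)
    exact ⟨v, w, ρ, σ, hv, hw, fun y hy hy' => h1 y hy (by linarith),
      fun y hy hy' => h2 y hy (by linarith), by linarith⟩
  obtain ⟨c, hc⟩ := cells_angle d
  -- the optimal radius
  let R : EuclideanSpace ℝ (Fin d) → Set ℝ := fun x =>
    {ρ | 0 ≤ ρ ∧ ∃ v : EuclideanSpace ℝ (Fin d), v ≠ 0 ∧
      ∀ y ∈ K, D - e ≤ dist x y → angle v (y - x) ≤ ρ}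
  have hbdd : ∀ x, BddBelow (R x) := fun x => ⟨0, fun ρ hρ => hρ.1⟩
  have hpick : ∀ x, (R x).Nonempty → ∃ ρ v, ρ < sInf (R x) + e / 3 ∧
      v ≠ 0 ∧ ∀ y ∈ K, D - e ≤ dist x y → angle v (y - x) ≤ ρ := by
    intro x hne
    obtain ⟨ρ, hρ, hρ'⟩ := exists_lt_of_csInf_lt hne (show sInf (R x) < sInf (R x) + e / 3 by
      linarith)
    obtain ⟨_, v, hv, hv'⟩ := hρ
    exact ⟨ρ, v, hρ', hv, hv'⟩
  have hpick' : ∀ x, ∃ (ρ : ℝ) (v : EuclideanSpace ℝ (Fin d)), (R x).Nonempty →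
      ρ < sInf (R x) + e / 3 ∧ v ≠ 0 ∧ ∀ y ∈ K, D - e ≤ dist x y → angle v (y - x) ≤ ρ := by
    intro x
    by_cases hne : (R x).Nonempty
    · obtain ⟨ρ, v, h'⟩ := hpick x hne
      exact ⟨ρ, v, fun _ => h'⟩
    · exact ⟨0, 0, fun h' => absurd h' hne⟩
  choose r v hrv using hpick'
  refine ⟨e, he, fun x => c (v x), fun x hx z hz hxz => ?_⟩
  by_contra hcon
  rw [not_lt] at hcon
  have hcon' : D - e ≤ dist z x := by rwa [dist_comm]
  have hne : x ≠ z := by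
    rintro rfl
    rw [dist_self] at hcon
    linarith
  obtain ⟨a, b, ρ, σ, ha, hb, h1, h2, h3⟩ := hu x hx z hz hcon
  have hρ : ρ ∈ R x := ⟨(angle_nonneg _ _).trans (h1 z hz hcon), a, ha, h1⟩
  have hσ : σ ∈ R z := ⟨(angle_nonneg _ _).trans (h2 x hx hcon'), b, hb, h2⟩
  obtain ⟨p1, p2, p3⟩ := hrv x ⟨ρ, hρ⟩
  obtain ⟨q1, q2, q3⟩ := hrv z ⟨σ, hσ⟩
  have s1 : sInf (R x) ≤ ρ := csInf_le (hbdd x) hρ
  have s2 : sInf (R z) ≤ σ := csInf_le (hbdd z) hσ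
  have a1 := p3 z hz hcon
  have a2 := q3 x hx hcon'
  have hcell := hc _ _ p2 q2 hxz
  have hpi : angle (z - x) (x - z) = Real.pi := by
    rw [← neg_sub z x]
    exact angle_self_neg_of_nonzero (sub_ne_zero.2 (Ne.symm hne))
  have t1 := angle_le_angle_add_angle (z - x) (v x) (x - z)
  have t2 := angle_le_angle_add_angle (v x) (v z) (x - z)
  rw [angle_comm (z - x) (v x)] at t1
  linarith

end Vale.Agent.P052.R3.H612
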