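import Vale.Agent.P052.R3.H612.Far

/-! The two final theorems, for P052.NarrowFarSets. -/

namespace Vale.Agent.P052.R3.H612

open scoped RealInnerProductSpace Topology
open InnerProductGeometry

/-- (A): every far pair has cap radii with sum smaller than `arccos (d/(d+2))`. -/
theorem narrow (d : ℕ) (X : Set (EuclideanSpace ℝ (Fin d))) (hX : Bornology.IsBounded X)
    (hD : 0 < Metric.diam X)
    (h : ∀ x ∈ closure X, ∀ z ∈ closure X, dist x z = Metric.diam X →
      ∃ v w : EuclideanSpace ℝ (Fin d), ∃ ρ σ : ℝ, v ≠ 0 ∧ w ≠ 0 ∧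
        (∀ y ∈ closure X, dist x y = Metric.diam X → angle v (y - x) ≤ ρ) ∧
        (∀ y ∈ closure X, dist z y = Metric.diam X → angle w (y - z) ≤ σ) ∧
        ρ + σ < Real.arccos (d / (d + 2))) :
    ∃ P : Fin (d + 1) → Set (EuclideanSpace ℝ (Fin d)),
      (⋃ i, P i) = X ∧ ∀ i, Metric.diam (P i) < Metric.diam X := by
  have hle : ∀ x ∈ closure X, ∀ y ∈ closure X, dist x y ≤ Metric.diam X := by
    intro x hx y hy
    rw [← Metric.diam_closure]
    exact Metric.dist_le_diam_of_mem hX.closure hx hy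
  obtain ⟨e, he, c, hc⟩ := far_partition hX.isCompact_closure hD (by
    intro x hx z hz hxz
    obtain ⟨v, w, ρ, σ, hv, hw, h1, h2, h3⟩ := h x hx z hz (le_antisymm (hle x hx z hz) hxz)
    exact ⟨v, w, ρ, σ, hv, hw, fun y hy hy' => h1 y hy (le_antisymm (hle x hx y hy) hy'),
      fun y hy hy' => h2 y hy (le_antisymm (hle z hz y hy) hy'), h3⟩)
  refine ⟨fun i => {x ∈ X | c x = i}, ?_, fun i => ?_⟩
  · ext x
    simp
  · obtain ⟨b, hb0, hb1, hb⟩ : ∃ b, 0 ≤ b ∧ b < Metric.diam X ∧ Metric.diam X - e ≤ b :=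
      ⟨max 0 (Metric.diam X - e), le_max_left _ _, max_lt hD (by linarith), le_max_right _ _⟩
    refine lt_of_le_of_lt (Metric.diam_le_of_forall_dist_le hb0 ?_) hb1
    intro x hx y hy
    exact ((hc x (subset_closure hx.1) y (subset_closure hy.1) (hx.2.trans hy.2.symm)).trans_le
      hb).le

/-- Every point of the closure has its far directions in a cap of angular radius
`arccos √((d+1)/(2d))`. -/
theorem cap_all (d : ℕ) (X : Set (EuclideanSpace ℝ (Fin d))) (hX : Bornology.IsBounded X)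
    (hD : 0 < Metric.diam X) (x : EuclideanSpace ℝ (Fin d)) :
    ∃ v : EuclideanSpace ℝ (Fin d), v ≠ 0 ∧
      ∀ y ∈ closure X, dist x y = Metric.diam X →
        angle v (y - x) ≤ Real.arccos (√((d + 1) / (2 * d))) := by
  have hle : ∀ x ∈ closure X, ∀ y ∈ closure X, dist x y ≤ Metric.diam X := by
    intro x hx y hy
    rw [← Metric.diam_closure]
    exact Metric.dist_le_diam_of_mem hX.closure hx hy
  have hd : 1 ≤ d := by
    rcases Nat.eq_zero_or_pos d with rfl | hd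
    · exact absurd hD (by rw [Metric.diam_subsingleton (Set.subsingleton_of_subsingleton)]; simp)
    · exact hd
  set D := Metric.diam X with hDdef
  by_cases hne : ∃ y ∈ closure X, dist x y = D
  · obtain ⟨y₀, hy₀, hy₀'⟩ := hne
    obtain ⟨w, hw, hw'⟩ := sphere_jung hd
      (S := {u | ∃ y ∈ closure X, dist x y = D ∧ u = D⁻¹ • (y - x)}) ⟨_, y₀, hy₀, hy₀', rfl⟩
      (by
        rintro u ⟨y, _, hy', rfl⟩
        rw [norm_smul, norm_inv, Real.norm_of_nonneg hD.le, ← dist_eq_norm, dist_comm, hy',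
          inv_mul_cancel₀ hD.ne'])
      (by
        rintro u ⟨y, hy, hy', rfl⟩ u' ⟨z, hz, hz', rfl⟩
        have h1 : ‖y - x‖ = D := by rw [← dist_eq_norm, dist_comm, hy']
        have h2 : ‖z - x‖ = D := by rw [← dist_eq_norm, dist_comm, hz']
        have h3 : ‖(y - x) - (z - x)‖ ≤ D := by
          rw [sub_sub_sub_cancel_right, ← dist_eq_norm]; exact hle y hy z hz
        have h4 : ‖(y - x) - (z - x)‖ ^ 2 ≤ D ^ 2 := pow_le_pow_left₀ (norm_nonneg _) h3 2
        rw [norm_sub_sq_real, h1, h2] at h4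
        rw [real_inner_smul_left, real_inner_smul_right]
        have h5 : D ^ 2 / 2 ≤ ⟪y - x, z - x⟫ := by linarith
        calc (1 / 2 : ℝ) = D⁻¹ * (D⁻¹ * (D ^ 2 / 2)) := by field_simp
          _ ≤ D⁻¹ * (D⁻¹ * ⟪y - x, z - x⟫) := by gcongr)
    refine ⟨w, hw, fun y hy hy' => ?_⟩
    have h1 := hw' _ ⟨y, hy, hy', rfl⟩
    have nw : 0 < ‖w‖ := norm_pos_iff.2 hw
    have ny : ‖y - x‖ = D := by rw [← dist_eq_norm, dist_comm, hy']
    rw [angle]
    apply Real.arccos_le_arccos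
    rw [real_inner_smul_right] at h1
    rw [ny, le_div_iff₀ (mul_pos nw hD)]
    have h2 := mul_le_mul_of_nonneg_left h1 hD.le
    have h3 : D * (D⁻¹ * ⟪w, y - x⟫) = ⟪w, y - x⟫ := by field_simp
    linarith
  · obtain ⟨v, hv⟩ : ∃ v : EuclideanSpace ℝ (Fin d), v ≠ 0 := by
      have : Nonempty (Fin d) := ⟨⟨0, hd⟩⟩
      exact exists_ne 0
    exact ⟨v, hv, fun y hy hy' => absurd ⟨y, hy, hy'⟩ hne⟩

/-- (B): every far pair has one endpoint with a cap radius smaller than
`arccos (d/(d+2)) - arccos √((d+1)/(2d))`. -/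
theorem narrow_one (d : ℕ) (X : Set (EuclideanSpace ℝ (Fin d))) (hX : Bornology.IsBounded X)
    (hD : 0 < Metric.diam X)
    (h : ∀ x ∈ closure X, ∀ z ∈ closure X, dist x z = Metric.diam X →
      ∃ t : EuclideanSpace ℝ (Fin d), (t = x ∨ t = z) ∧
        ∃ v : EuclideanSpace ℝ (Fin d), ∃ ρ : ℝ, v ≠ 0 ∧
        (∀ y ∈ closure X, dist t y = Metric.diam X → angle v (y - t) ≤ ρ) ∧
        ρ + Real.arccos (√((d + 1) / (2 * d))) < Real.arccos (d / (d + 2))) :
    ∃ P : Fin (d + 1) → Set (EuclideanSpace ℝ (Fin d)),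
      (⋃ i, P i) = X ∧ ∀ i, Metric.diam (P i) < Metric.diam X := by
  refine narrow d X hX hD fun x hx z hz hxz => ?_
  obtain ⟨t, ht, v, ρ, hv, h1, h2⟩ := h x hx z hz hxz
  rcases ht with rfl | rfl
  · obtain ⟨w, hw, hw'⟩ := cap_all d X hX hD z
    exact ⟨v, w, ρ, _, hv, hw, h1, hw', h2⟩
  · obtain ⟨w, hw, hw'⟩ := cap_all d X hX hD x
    exact ⟨w, v, _, ρ, hw, hv, hw', h1, by linarith⟩

end Vale.Agent.P052.R3.H612
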