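import Mathlib

/-! Row RCAP of P052.TetrahedraInFour: the real inequality for the cap. -/

namespace Vale.Agent.P052.R3.H612

theorem real_cap_fin {a b x y r s : ℝ} (ha1 : 1 ≤ a) (hb1 : 1 ≤ b) (hx0 : 0 < x) (hy0 : 0 < y)
    (hx1 : x < 1) (hy1 : y < 1) (hr5 : 1 / 5 * a ≤ r) (hs5 : 1 / 5 * b ≤ s)
    (g0 : 2 * (r * s) ≤ 4 * (x * y)) (g2 : a + b + 2 * (r * s) ≤ 4 * ((1 - x) * (1 - y)))
    (g3 : 0 ≤ (a - 1) ^ 2 + (b - 1) ^ 2 + 4 * (1 - x - y) ^ 2 - 2 - 2 * (r + s) ^ 2) : False := by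
  have hr0 : 0 < r := by linarith
  have hs0 : 0 < s := by linarith
  have hrs : 0 < r * s := mul_pos hr0 hs0
  obtain ⟨g, hg0, hg⟩ : ∃ g, 0 ≤ g ∧ g ^ 2 = 2 * (r * s) :=
    ⟨√(2 * (r * s)), Real.sqrt_nonneg _, Real.sq_sqrt (by linarith)⟩
  have hxy := sq_nonneg (x - y)
  have hgt : g ≤ x + y :=
    (pow_le_pow_iff_left₀ hg0 (by linarith) two_ne_zero).1 (by linarith)
  have ht1 : x + y ≤ 1 := by
    by_contra h
    rw [not_le] at h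
    have e1 : (2 - (x + y)) ^ 2 ≤ 1 ^ 2 := pow_le_pow_left₀ (by linarith) (by linarith) 2
    linarith
  have c1 : (a - 1) + (b - 1) ≤ 2 - 4 * g := by
    have e1 : (2 - (x + y)) ^ 2 ≤ (2 - g) ^ 2 := pow_le_pow_left₀ (by linarith) (by linarith) 2
    linarith
  have hh := mul_nonneg (sub_nonneg.2 ha1) (sub_nonneg.2 hb1)
  have c2 : 1 + (a - 1) + (b - 1) ≤ 25 / 2 * g ^ 2 := by
    have e1 : (1 / 5 * a) * (1 / 5 * b) ≤ r * s :=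
      mul_le_mul hr5 hs5 (by linarith) hr0.le
    linarith
  have c3 : 8 * g - 2 ≤ ((a - 1) + (b - 1)) ^ 2 := by
    have e1 := sq_nonneg (r - s)
    have e2 : (1 - (x + y)) ^ 2 ≤ (1 - g) ^ 2 :=
      pow_le_pow_left₀ (by linarith) (by linarith) 2
    linarith
  have hσ : 0 ≤ (a - 1) + (b - 1) := by linarith
  rcases le_or_gt g (33 / 100) with h | h
  · have e0 : g ^ 2 ≤ (33 / 100) ^ 2 := pow_le_pow_left₀ hg0 h 2
    have e1 : (a - 1) + (b - 1) ≤ 37 / 100 := by linarith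
    have e3 : ((a - 1) + (b - 1)) ^ 2 ≤ (37 / 100) ^ 2 := pow_le_pow_left₀ hσ e1 2
    have e2 : 28 / 100 ≤ g := by
      by_contra h'
      rw [not_le] at h'
      have : g ^ 2 ≤ (28 / 100) ^ 2 := pow_le_pow_left₀ hg0 h'.le 2
      linarith
    linarith
  · have e1 : (a - 1) + (b - 1) ≤ 68 / 100 := by linarith
    have e3 : ((a - 1) + (b - 1)) ^ 2 ≤ (68 / 100) ^ 2 := pow_le_pow_left₀ hσ e1 2
    linarith

theorem real_cap_neg {κ ω z z' : ℝ} (hκ : -(1/4) ≤ κ) (hω : -(1/4) ≤ ω) (hk : κ < 0) (hw : ω < 0)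
    (hz0 : 0 < z) (hz0' : 0 < z')
    (hSA : 1 - 2 * z ^ 2 + 4 * κ ^ 2 ≤ (1 + 4 * κ) ^ 2)
    (hSB : 1 - 2 * z' ^ 2 + 4 * ω ^ 2 ≤ (1 + 4 * ω) ^ 2)
    (hcon : z * z' ≤ 2 * (κ * ω)) : False := by
  have hpos : 0 < κ * ω := mul_pos_of_neg_of_neg hk hw
  have u1 : 0 ≤ (-κ) * (1 / 4 + κ) := mul_nonneg (by linarith) (by linarith)
  have u2 : 0 ≤ (-ω) * (1 / 4 + ω) := mul_nonneg (by linarith) (by linarith)
  have e1 : (5 / 2) * (-κ) ≤ z ^ 2 := by linarith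
  have e2 : (5 / 2) * (-ω) ≤ z' ^ 2 := by linarith
  have e3 : (5 / 2) * (-κ) * ((5 / 2) * (-ω)) ≤ z ^ 2 * z' ^ 2 :=
    mul_le_mul e1 e2 (by linarith) (by positivity)
  have e5 : (z * z') ^ 2 ≤ (2 * (κ * ω)) ^ 2 := pow_le_pow_left₀ (mul_pos hz0 hz0').le hcon 2
  have e6 : (-κ) * (-ω) ≤ (1 / 4) * (1 / 4) :=
    mul_le_mul (by linarith) (by linarith) (by linarith) (by norm_num)
  have e7 : κ * ω * (κ * ω) ≤ κ * ω * (1 / 16) := mul_le_mul_of_nonneg_left (by linarith) hpos.le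
  have e8 : (z * z') ^ 2 = z ^ 2 * z' ^ 2 := by ring
  have e9 : (2 * (κ * ω)) ^ 2 = 4 * (κ * ω * (κ * ω)) := by ring
  have e10 : (5 / 2) * (-κ) * ((5 / 2) * (-ω)) = 25 / 4 * (κ * ω) := by ring
  linarith

theorem real_cap {A B κ ω z z' E : ℝ} (hA1 : A ≤ 1) (hB1 : B ≤ 1) (hκA : κ < A) (hωB : ω < B)
    (hκ : -(1/4) ≤ κ) (hω : -(1/4) ≤ ω) (hz : 1/5 ≤ z) (hz' : 1/5 ≤ z')
    (hSA : 1 - 2 * z ^ 2 + 4 * κ ^ 2 ≤ (1 + 4 * κ) ^ 2)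
    (hSB : 1 - 2 * z' ^ 2 + 4 * ω ^ 2 ≤ (1 + 4 * ω) ^ 2) (h0 : 0 ≤ E)
    (h2 : A * (1 + 4 * ω) + B * (1 + 4 * κ) - 4 * (A * B) ≤ E)
    (h3 : 0 ≤ B ^ 2 * (1 - 2 * z ^ 2 + 4 * κ ^ 2) + A ^ 2 * (1 - 2 * z' ^ 2 + 4 * ω ^ 2)
      + 2 * (A * B) * E - 2 * (A * B ^ 2) * (1 + 4 * κ) - 2 * (A ^ 2 * B) * (1 + 4 * ω)
      + 4 * (A ^ 2 * B ^ 2)) : 4 * (κ * ω) < E + 2 * (z * z') := by
  have hz0 : 0 < z := by linarith
  have hz0' : 0 < z' := by linarith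
  have hzz : 0 < z * z' := mul_pos hz0 hz0'
  by_contra hcon
  rw [not_lt] at hcon
  have hpos : 0 < κ * ω := by linarith
  rcases (mul_pos_iff.1 hpos) with ⟨hk0, hw0⟩ | ⟨hk, hw⟩
  · have hA : 0 < A := hk0.trans hκA
    have hB : 0 < B := hw0.trans hωB
    obtain ⟨a, ha, ha0⟩ : ∃ a, A * a = 1 ∧ 0 < a := ⟨A⁻¹, mul_inv_cancel₀ hA.ne', inv_pos.2 hA⟩
    obtain ⟨b, hb, hb0⟩ : ∃ b, B * b = 1 ∧ 0 < b := ⟨B⁻¹, mul_inv_cancel₀ hB.ne', inv_pos.2 hB⟩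
    have ha1 : 1 ≤ a := by
      have := mul_le_mul_of_nonneg_right hA1 ha0.le
      linarith
    have hb1 : 1 ≤ b := by
      have := mul_le_mul_of_nonneg_right hB1 hb0.le
      linarith
    have hab : 0 < a * b := mul_pos ha0 hb0
    have f0 : 2 * (z * z') ≤ 4 * (κ * ω) := by linarith
    have f2 : A + B + 2 * (z * z') ≤ 4 * ((A - κ) * (B - ω)) := by linarith
    have hAB : 0 < A * B := mul_pos hA hB
    have f3 : 0 ≤ B ^ 2 * (1 - 2 * z ^ 2 + 4 * κ ^ 2) + A ^ 2 * (1 - 2 * z' ^ 2 + 4 * ω ^ 2)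
      + 2 * (A * B) * (4 * (κ * ω) - 2 * (z * z')) - 2 * (A * B ^ 2) * (1 + 4 * κ)
      - 2 * (A ^ 2 * B) * (1 + 4 * ω) + 4 * (A ^ 2 * B ^ 2) := by
      have : 2 * (A * B) * E ≤ 2 * (A * B) * (4 * (κ * ω) - 2 * (z * z')) :=
        mul_le_mul_of_nonneg_left (by linarith) (by linarith)
      linarith
    obtain ⟨x, hx⟩ : ∃ x, x = κ * a := ⟨_, rfl⟩
    obtain ⟨y, hy⟩ : ∃ y, y = ω * b := ⟨_, rfl⟩
    obtain ⟨r, hr⟩ : ∃ r, r = z * a := ⟨_, rfl⟩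
    obtain ⟨s, hs⟩ : ∃ s, s = z' * b := ⟨_, rfl⟩
    have hx0 : 0 < x := hx ▸ mul_pos hk0 ha0
    have hy0 : 0 < y := hy ▸ mul_pos hw0 hb0
    have hx1 : x < 1 := by
      rw [hx, ← ha]; exact mul_lt_mul_of_pos_right hκA ha0
    have hy1 : y < 1 := by
      rw [hy, ← hb]; exact mul_lt_mul_of_pos_right hωB hb0
    have hr5 : 1 / 5 * a ≤ r := hr ▸ mul_le_mul_of_nonneg_right hz ha0.le
    have hs5 : 1 / 5 * b ≤ s := hs ▸ mul_le_mul_of_nonneg_right hz' hb0.le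
    have g0 : 2 * (r * s) ≤ 4 * (x * y) := by
      have := mul_le_mul_of_nonneg_left f0 hab.le
      have e1 : a * b * (2 * (z * z')) = 2 * (r * s) := by rw [hr, hs]; ring
      have e2 : a * b * (4 * (κ * ω)) = 4 * (x * y) := by rw [hx, hy]; ring
      linarith
    have g2 : a + b + 2 * (r * s) ≤ 4 * ((1 - x) * (1 - y)) := by
      have := mul_le_mul_of_nonneg_left f2 hab.le
      have e1 : a * b * (A + B + 2 * (z * z')) = (A * a) * b + (B * b) * a + 2 * (r * s) := by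
        rw [hr, hs]; ring
      have e2 : a * b * (4 * ((A - κ) * (B - ω))) = 4 * ((A * a - x) * (B * b - y)) := by
        rw [hx, hy]; ring
      rw [e1, e2, ha, hb] at this
      linarith
    have g3 : 0 ≤ (a - 1) ^ 2 + (b - 1) ^ 2 + 4 * (1 - x - y) ^ 2 - 2 - 2 * (r + s) ^ 2 := by
      have := mul_nonneg (mul_nonneg hab.le hab.le) f3
      have e1 : a * b * (a * b) * (B ^ 2 * (1 - 2 * z ^ 2 + 4 * κ ^ 2)
          + A ^ 2 * (1 - 2 * z' ^ 2 + 4 * ω ^ 2)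
          + 2 * (A * B) * (4 * (κ * ω) - 2 * (z * z')) - 2 * (A * B ^ 2) * (1 + 4 * κ)
          - 2 * (A ^ 2 * B) * (1 + 4 * ω) + 4 * (A ^ 2 * B ^ 2))
          = (B * b) ^ 2 * (a ^ 2 - 2 * r ^ 2 + 4 * x ^ 2)
          + (A * a) ^ 2 * (b ^ 2 - 2 * s ^ 2 + 4 * y ^ 2)
          + 2 * ((A * a) * (B * b)) * (4 * (x * y) - 2 * (r * s))
          - 2 * ((A * a) * (B * b) ^ 2) * (a + 4 * x)
          - 2 * ((A * a) ^ 2 * (B * b)) * (b + 4 * y) + 4 * ((A * a) ^ 2 * (B * b) ^ 2) := by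
        rw [hr, hs, hx, hy]; ring
      rw [e1, ha, hb] at this
      linarith
    exact real_cap_fin ha1 hb1 hx0 hy0 hx1 hy1 hr5 hs5 g0 g2 g3
  · exact real_cap_neg hκ hω hk hw hz0 hz0' hSA hSB (by linarith)

end Vale.Agent.P052.R3.H612
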